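import Vale.Agent.P011UD.Cls

/-!
Diagram automorphisms and centres.
-/

set_option autoImplicit false
set_option linter.all false

namespace Vale.Agent.P011UD

open Matrix CartanMatrix

variable {n : ℕ}

/-- Automorphisms of a matrix. -/
def Au (C : Matrix (Fin n) (Fin n) ℤ) (p : Equiv.Perm (Fin n)) : Prop :=
  ∀ a b, C (p a) (p b) = C a b

variable {p : Equiv.Perm (Fin n)}

theorem Au.vec {C : Matrix (Fin n) (Fin n) ℤ} (h : Au C p) (hd : C.det ≠ 0) (v : Fin n → ℤ)
    (hv : v ᵥ* C = fun _ => 2) (a : Fin n) : v (p a) = v a := by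
  have h1 : (fun a => v (p a)) ᵥ* C = fun _ => 2 := funext fun b => by
    rw [← congrFun hv (p b)]
    exact (Finset.sum_congr rfl fun a _ => congrArg (v (p a) * ·) (h a b).symm).trans
      (Equiv.sum_comp p fun a => v a * C a (p b))
  have h2 := eq_zero_of_vecMul_eq_zero hd (v := (fun a => v (p a)) - v)
    (by rw [sub_vecMul, h1, hv, sub_self])
  exact sub_eq_zero.1 (congrFun h2 a)

theorem Au.one {C : Matrix (Fin n) (Fin n) ℤ} (h : Au C p) (hd : C.det ≠ 0) (v : Fin n → ℤ)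
    (hv : v ᵥ* C = fun _ => 2) (hi : Function.Injective v) : p = 1 :=
  Equiv.ext fun a => hi (h.vec hd v hv a)

theorem sq_of (r : Fin n → Fin n) (hr : ∀ a, r (r a) = a) (h : ∀ a, p a = a ∨ p a = r a) :
    p * p = 1 := Equiv.ext fun a => by
  show p (p a) = a
  rcases h a with e | e
  · rw [e, e]
  · rcases h (p a) with e' | e'
    · exact e'.trans (p.injective e')
    · rw [e', e, hr]

theorem autE6 {p : Equiv.Perm (Fin 6)} (h : Au E₆ p) : p * p = 1 :=
  sq_of ![5, 1, 4, 3, 2, 0] (by decide) fun a => by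
    have := h.vec (by rw [E₆_det]; decide) ![16, 22, 30, 42, 30, 16] (by decide) a
    generalize p a = b at this
    revert a b
    decide

theorem autE7 {p : Equiv.Perm (Fin 7)} (h : Au E₇ p) : p = 1 :=
  h.one (by rw [E₇_det]; decide) ![34, 49, 66, 96, 75, 52, 27] (by decide) (by decide)

theorem autE8 {p : Equiv.Perm (Fin 8)} (h : Au E₈ p) : p = 1 :=
  h.one (by rw [E₈_det]; decide) ![92, 136, 182, 270, 220, 168, 114, 58] (by decide) (by decide)

theorem autF {p : Equiv.Perm (Fin 4)} (h : Au F₄ p) : p = 1 :=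
  h.one (by rw [F₄_det]; decide) ![16, 30, 42, 22] (by decide) (by decide)

theorem autG {p : Equiv.Perm (Fin 2)} (h : Au G₂ p) : p = 1 :=
  h.one (by rw [G₂_det]; decide) ![6, 10] (by decide) (by decide)

theorem path_aut (h : ∀ a b : Fin n, a.1 + 1 = b → (p a).1 + 1 = p b ∨ (p b).1 + 1 = p a) :
    p = 1 ∨ ∀ a, (p a).1 + a + 1 = n := by
  rcases n with _ | n
  · exact .inl (Subsingleton.elim _ _)
  have key : (∀ a (ha : a < n + 1), (p ⟨a, ha⟩).1 = p 0 + a) ∨
      ∀ a (ha : a < n + 1), (p ⟨a, ha⟩).1 + a = p 0 := by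
    by_cases c : ∀ h1 : 1 < n + 1, (p 0).1 + 1 = p ⟨1, h1⟩ <;> [left; right] <;> intro a <;>
      induction a using Nat.twoStepInduction with
      | zero => exact fun _ => rfl
      | one =>
        intro ha
        have := h 0 ⟨1, ha⟩ rfl
        first | exact (c ha).symm | (have : (p 0).1 + 1 ≠ p ⟨1, ha⟩ := fun e => c fun _ => e; omega)
      | more a h1 h2 =>
        intro ha
        have := h ⟨a + 1, by omega⟩ ⟨a + 2, ha⟩ rfl
        have := h1 (by omega)
        have := h2 (by omega)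
        have : (p ⟨a, by omega⟩).1 ≠ p ⟨a + 2, ha⟩ := fun e => by
          simpa using p.injective (Fin.ext e)
        omega
  rcases key with k | k
  · have := k n (by omega)
    have := (p ⟨n, by omega⟩).2
    exact .inl (Equiv.ext fun a => Fin.ext (by have := k a a.2; simp at this ⊢; omega))
  · have := k n (by omega)
    have := (p 0).2
    exact .inr fun a => by have := k a a.2; simp at this; omega

theorem autA (h : Au (A n) p) : p * p = 1 := by
  rcases path_aut (p := p) fun a b e => by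
    have := h a b
    simp only [A, of_apply, Fin.ext_iff] at this
    split_ifs at this <;> omega with e | e
  · rw [e, one_mul]
  · exact Equiv.ext fun a => Fin.ext (by
      have := e a; have := e (p a); show (p (p a)).1 = a; omega)

theorem autB (h2 : 2 ≤ n) (h : Au (B n) p) : p = 1 := by
  refine (path_aut (p := p) fun a b e => ?_).resolve_right fun e => ?_
  · have := h a b
    simp only [B, of_apply, Fin.ext_iff] at this
    split_ifs at this <;> omega
  · have := h ⟨n - 2, by omega⟩ ⟨n - 1, by omega⟩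
    have h3 := e ⟨n - 2, by omega⟩
    have h4 := e ⟨n - 1, by omega⟩
    simp only [B, of_apply, Fin.ext_iff] at this h3 h4
    split_ifs at this <;> omega

theorem autC (h2 : 2 ≤ n) (h : Au (C n) p) : p = 1 :=
  autB h2 fun a b => by rw [← C_transpose]; exact h b a

theorem D_adj (h4 : 4 ≤ n) (a b : Fin n) : D n a b = -1 ↔ (a.1 + 1 = b ∧ b.1 + 1 < n) ∨
    (b.1 + 1 = a ∧ a.1 + 1 < n) ∨ (a.1 + 3 = n ∧ b.1 + 1 = n) ∨ (b.1 + 3 = n ∧ a.1 + 1 = n) := by
  simp only [D, of_apply, Fin.ext_iff]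
  split_ifs <;> first | omega | (simp; omega)

theorem autD (h4 : 4 ≤ n) (h : Au (D n) p) (a : Fin n) (ha : a.1 + 3 = n ∨ (a.1 + 2 < n ∧ 4 < n)) :
    p a = a := by
  have ad := fun a b (e : _) => (D_adj h4 (p a) (p b)).1 ((h a b).trans ((D_adj h4 a b).2 e))
  have ne : ∀ a b : Fin n, a.1 ≠ b → (p a).1 ≠ p b := fun a b e e' =>
    e (congrArg _ (p.injective (Fin.ext e')))
  have hc : (p ⟨n - 3, by omega⟩).1 = n - 3 := by
    have := ad ⟨n - 3, by omega⟩ ⟨n - 4, by omega⟩ (by simp; omega)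
    have := ad ⟨n - 3, by omega⟩ ⟨n - 2, by omega⟩ (by simp; omega)
    have := ad ⟨n - 3, by omega⟩ ⟨n - 1, by omega⟩ (by simp; omega)
    have := ne ⟨n - 4, by omega⟩ ⟨n - 2, by omega⟩ (by simp; omega)
    have := ne ⟨n - 4, by omega⟩ ⟨n - 1, by omega⟩ (by simp; omega)
    have := ne ⟨n - 2, by omega⟩ ⟨n - 1, by omega⟩ (by simp; omega)
    omega
  have key : 4 < n → ∀ j (hj : j + 3 ≤ n), (p ⟨n - 3 - j, by omega⟩).1 = n - 3 - j := fun h5 j => by
    induction j using Nat.twoStepInduction with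
    | zero => exact fun _ => hc
    | one =>
      intro _
      have := ad ⟨n - 3, by omega⟩ ⟨n - 3 - 1, by omega⟩ (by simp; omega)
      have := ad ⟨n - 3 - 1, by omega⟩ ⟨n - 5, by omega⟩ (by simp; omega)
      have := ne ⟨n - 3, by omega⟩ ⟨n - 5, by omega⟩ (by simp; omega)
      omega
    | more j h1 h2 =>
      intro hj
      have := h1 (by omega)
      have := h2 (by omega)
      have := ad ⟨n - 3 - (j + 1), by omega⟩ ⟨n - 3 - (j + 2), by omega⟩ (by simp; omega)
      have := ne ⟨n - 3 - j, by omega⟩ ⟨n - 3 - (j + 2), by omega⟩ (by simp; omega)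
      omega
  refine Fin.ext ?_
  rcases ha with e | ⟨e, h5⟩
  · rwa [show (⟨n - 3, by omega⟩ : Fin n) = a from Fin.ext (by simp; omega),
      show n - 3 = a by omega] at hc
  · have := key h5 (n - 3 - a) (by omega)
    rwa [show (⟨n - 3 - (n - 3 - a), by omega⟩ : Fin n) = a from Fin.ext (by simp; omega),
      show n - 3 - (n - 3 - a) = a by omega] at this

theorem autD_sq (h4 : 4 < n) (h : Au (D n) p) : p * p = 1 := by
  have h1 := fun a ha => autD h4.le h a (.inr ⟨ha, h4⟩)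
  refine sq_of (fun a => ⟨if a.1 + 2 = n then n - 1 else if a.1 + 1 = n then n - 2 else a, by
    have := a.2; split_ifs <;> omega⟩) (fun a => Fin.ext (by
      simp only []; split_ifs <;> omega)) fun a => ?_
  by_cases e : (p a).1 + 2 < n
  · exact .inl (p.injective (h1 _ e))
  by_cases e' : a.1 + 2 < n
  · exact .inl (h1 _ e')
  have := a.2
  have := (p a).2
  simp only [Fin.ext_iff]
  split_ifs <;> omega

theorem sum4 (v : ℕ → ℤ) (M : Fin n → ℤ) (c₀ c₁ c₂ c₃ : ℕ) (x₀ x₁ x₂ x₃ : ℤ)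
    (h : ∀ a : Fin n, M a = (if a.1 = c₀ then x₀ else 0) + (if a.1 = c₁ then x₁ else 0) +
      (if a.1 = c₂ then x₂ else 0) + if a.1 = c₃ then x₃ else 0) :
    ∑ a : Fin n, v a * M a = (if c₀ < n then v c₀ * x₀ else 0) + (if c₁ < n then v c₁ * x₁ else 0) +
      (if c₂ < n then v c₂ * x₂ else 0) + if c₃ < n then v c₃ * x₃ else 0 := by
  have k : ∀ c (x : ℤ), ∑ a : Fin n, v a * (if a.1 = c then x else 0) =
      if c < n then v c * x else 0 := fun c x => by
    rw [Fin.sum_univ_eq_sum_range (fun a => v a * if a = c then x else 0)]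
    simp
  simp only [h, mul_add, Finset.sum_add_distrib, k]

/-- Twice every fundamental weight is an integral combination of the rows. -/
def X2 (C : Matrix (Fin n) (Fin n) ℤ) : Prop :=
  ∀ i, ∃ v : Fin n → ℤ, ∀ b, ∑ a, v a * C a b = if b = i then 2 else 0

theorem x2_of {C : Matrix (Fin n) (Fin n) ℤ} (V : Matrix (Fin n) (Fin n) ℤ)
    (h : V * C = diagonal fun _ => 2) : X2 C := fun i =>
  ⟨V i, fun b => (congrFun (congrFun h i) b).trans (by simp [diagonal_apply, eq_comm])⟩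

theorem sumB (h : 2 ≤ n) (v : ℕ → ℤ) (b : Fin n) : ∑ a : Fin n, v a * B n a b =
    if b.1 + 1 < n then 2 * v b - (if b.1 = 0 then 0 else v (b - 1)) - v (b + 1) else
      2 * v b - 2 * v (b - 1) := by
  have := b.2
  rw [sum4 _ (fun a => B n a b) b (b - 1) (b + 1) n 2
    (if b.1 = 0 then 0 else if b.1 + 1 = n then -2 else -1) (-1) 0 fun a => by
      have := a.2
      simp only [B, of_apply, Fin.ext_iff]
      split_ifs <;> omega]
  split_ifs <;> omega

theorem x2B (h : 2 ≤ n) : X2 (B n) := fun i => by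
  refine ⟨fun a => (fun a : ℕ => if i.1 + 1 = n then (a : ℤ) + 1 else if a < i then 2 * a + 2 else
    2 * i.1 + 2) a, fun b => ?_⟩
  have := i.2
  have := b.2
  rw [sumB h]
  simp only [Fin.ext_iff]
  split_ifs <;> omega

theorem sumC (h : 2 ≤ n) (v : ℕ → ℤ) (b : Fin n) : ∑ a : Fin n, v a * C n a b =
    2 * v b - (if b.1 = 0 then 0 else v (b - 1)) -
      if b.1 + 2 < n then v (b + 1) else if b.1 + 2 = n then 2 * v (b + 1) else 0 := by
  have := b.2
  rw [sum4 _ (fun a => C n a b) b (b - 1) (b + 1) n 2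
    (if b.1 = 0 then 0 else -1) (if b.1 + 2 = n then -2 else -1) 0 fun a => by
      have := a.2
      simp only [C, of_apply, Fin.ext_iff]
      split_ifs <;> omega]
  split_ifs <;> omega

theorem x2C (h : 2 ≤ n) : X2 (C n) := fun i => by
  refine ⟨fun a => (fun a : ℕ => if a + 1 = n then (i.1 : ℤ) + 1 else if a < i then 2 * a + 2 else
    2 * i.1 + 2) a, fun b => ?_⟩
  have := i.2
  have := b.2
  rw [sumC h]
  simp only [Fin.ext_iff]
  split_ifs <;> omega

theorem sumD (h : 4 ≤ n) (v : ℕ → ℤ) (b : Fin n) : ∑ a : Fin n, v a * D n a b =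
    if b.1 + 3 < n then 2 * v b - (if b.1 = 0 then 0 else v (b - 1)) - v (b + 1) else
    if b.1 + 3 = n then 2 * v b - v (b - 1) - v (b + 1) - v (b + 2) else 2 * v b - v (n - 3) := by
  have := b.2
  rw [sum4 _ (fun a => D n a b) b (if b.1 + 2 < n then b - 1 else n - 3) (b + 1) (b + 2) 2
    (if b.1 = 0 then 0 else -1) (if b.1 + 2 < n then -1 else 0) (if b.1 + 3 = n then -1 else 0)
    fun a => by
      have := a.2
      simp only [D, of_apply, Fin.ext_iff]
      split_ifs <;> omega]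
  split_ifs <;> omega

theorem x2D (h : 4 ≤ n) (he : Even n) : X2 (D n) := fun i => by
  obtain ⟨m, hm⟩ := he
  have := i.2
  by_cases e : i.1 + 2 < n
  · refine ⟨fun a => (fun a : ℕ => if n ≤ a + 2 then (i.1 : ℤ) + 1 else if a < i then 2 * a + 2 else
      2 * i.1 + 2) a, fun b => ?_⟩
    have := b.2
    rw [sumD h]
    simp only [Fin.ext_iff]
    split_ifs <;> omega
  · refine ⟨fun a => (fun a : ℕ => if a + 2 < n then (a : ℤ) + 1 else if a = i then m else m - 1) a,
      fun b => ?_⟩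
    have := b.2
    rw [sumD h]
    simp only [Fin.ext_iff]
    split_ifs <;> omega

theorem not_x2 : ¬X2 E₆ := fun h => by
  obtain ⟨v, h⟩ := h 0
  have h0 := h 0
  have h1 := h 1
  have h2 := h 2
  have h3 := h 3
  have h4 := h 4
  have h5 := h 5
  simp [Fin.sum_univ_succ, E₆] at h0 h1 h2 h3 h4 h5
  omega

end Vale.Agent.P011UD

namespace Vale.Agent.P011U

open Matrix CartanMatrix Vale.Agent.P183CH Vale.Agent.P011UD

variable {R : RS} {n : ℕ} {C : Matrix (Fin n) (Fin n) ℤ} {e : Fin R.r ≃ Fin n}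
  {π : Equiv.Perm (Fin R.r)}

theorem Ty.au (h : Ty R C e) (hπ : Dg R π) : Au C (e.permCongr π) := fun a b => by
  rw [Equiv.permCongr_apply, Equiv.permCongr_apply, ← h, hπ, h, e.apply_symm_apply,
    e.apply_symm_apply]

theorem Ty.ex2 (h : Ty R C e) : Ex2 R ↔ X2 C := by
  refine ⟨fun k i => ?_, fun k i => ?_⟩
  · obtain ⟨v, hv⟩ := k (e.symm i)
    refine ⟨fun a => v (e.symm a), fun b => ?_⟩
    have := hv (e.symm b)
    rw [RS.pr_eq, ← e.symm.sum_comp] at this
    simpa only [h _ _, e.apply_symm_apply, e.symm.apply_eq_iff_eq] using this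
  · obtain ⟨v, hv⟩ := k (e i)
    refine ⟨fun a => v (e a), fun b => ?_⟩
    have := hv (e b)
    rw [← e.sum_comp] at this
    simpa only [RS.pr_eq, h _ _, e.apply_eq_iff_eq] using this

theorem ex2 : EX2 := fun R h => by
  rcases h with ⟨n, e, k, h⟩ | ⟨n, e, k, h⟩ | ⟨n, e, k, l, h⟩ | ⟨e, h⟩ | ⟨e, h⟩ | ⟨e, h⟩ | ⟨e, h⟩ <;>
    rw [h.ex2]
  exacts [x2B k, x2C (by omega), x2D k l,
    x2_of !![4, 4, 6, 8, 6, 4, 2; 4, 7, 8, 12, 9, 6, 3; 6, 8, 12, 16, 12, 8, 4;
      8, 12, 16, 24, 18, 12, 6; 6, 9, 12, 18, 15, 10, 5; 4, 6, 8, 12, 10, 8, 4;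
      2, 3, 4, 6, 5, 4, 3] (by decide),
    x2_of !![8, 10, 14, 20, 16, 12, 8, 4; 10, 16, 20, 30, 24, 18, 12, 6;
      14, 20, 28, 40, 32, 24, 16, 8; 20, 30, 40, 60, 48, 36, 24, 12; 16, 24, 32, 48, 40, 30, 20, 10;
      12, 18, 24, 36, 30, 24, 16, 8; 8, 12, 16, 24, 20, 16, 12, 6; 4, 6, 8, 12, 10, 8, 6, 4]
      (by decide),
    x2_of !![4, 6, 8, 4; 6, 12, 16, 8; 4, 8, 12, 6; 2, 4, 6, 4] (by decide),
    x2_of !![4, 6; 2, 4] (by decide)]

theorem pc_one (h : e.permCongr π = 1) : π = 1 :=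
  e.permCongrHom.injective (h.trans (map_one e.permCongrHom).symm)

theorem pc_sq (h : e.permCongr π * e.permCongr π = 1) : π * π = 1 :=
  pc_one ((map_mul e.permCongrHom π π).trans h)

theorem dg2 : DG2 := fun R hR π hπ h => by
  have k : π ≠ 1 := fun e => h (by rw [e, one_mul])
  rcases cls R hR with ⟨n, e, t⟩ | ⟨n, e, l, t⟩ | ⟨n, e, l, t⟩ | ⟨n, e, l, t⟩ | ⟨e, t⟩ | ⟨e, t⟩ |
    ⟨e, t⟩ | ⟨e, t⟩ | ⟨e, t⟩
  · exact (h (pc_sq (autA (t.au hπ)))).elim
  · exact (k (pc_one (autB l (t.au hπ)))).elim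
  · exact (k (pc_one (autC (by omega) (t.au hπ)))).elim
  · rcases l.eq_or_lt with rfl | l
    exacts [⟨e, t⟩, (h (pc_sq (autD_sq l (t.au hπ)))).elim]
  · exact (h (pc_sq (autE6 (t.au hπ)))).elim
  · exact (k (pc_one (autE7 (t.au hπ)))).elim
  · exact (k (pc_one (autE8 (t.au hπ)))).elim
  · exact (k (pc_one (autF (t.au hπ)))).elim
  · exact (k (pc_one (autG (t.au hπ)))).elim

theorem TyA.no3 (h : TyA R) {c x y z : Fin R.r} (h1 : R.A x c = -1) (h2 : R.A y c = -1)
    (h3 : R.A z c = -1) (k1 : x ≠ y) (k2 : x ≠ z) (k3 : y ≠ z) : False := by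
  obtain ⟨n, e, h⟩ := h
  rw [h] at h1 h2 h3
  have l1 := e.injective.ne k1
  have l2 := e.injective.ne k2
  have l3 := e.injective.ne k3
  simp only [A, of_apply, Fin.ext_iff, ne_eq] at h1 h2 h3 l1 l2 l3
  split_ifs at h1 h2 h3 <;> omega

theorem nta : NTA := fun R h => by
  refine ⟨fun n e k t => ?_, fun e t => ?_⟩
  · refine h.no3 (c := e.symm ⟨n - 3, by omega⟩) (x := e.symm ⟨n - 4, by omega⟩)
      (y := e.symm ⟨n - 2, by omega⟩) (z := e.symm ⟨n - 1, by omega⟩) ?_ ?_ ?_ ?_ ?_ ?_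
    iterate 3
      rw [t, e.apply_symm_apply, e.apply_symm_apply, D_adj k]
      simp only []
      omega
    all_goals
      simp only [ne_eq, e.symm.apply_eq_iff_eq, Fin.ext_iff]
      omega
  · refine h.no3 (c := e.symm 3) (x := e.symm 1) (y := e.symm 2) (z := e.symm 4) ?_ ?_ ?_ ?_ ?_ ?_
    iterate 3
      rw [t, e.apply_symm_apply, e.apply_symm_apply]
      rfl
    all_goals
      rw [ne_eq, e.symm.apply_eq_iff_eq]
      decide

theorem Ty.dg3 (t : Ty R (D n) e) (h : 4 ≤ n) :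
    ∃ E : Finset (Fin R.r), E.card ≤ 3 ∧ ∀ π, Dg R π → ∀ i ∉ E, π i = i := by
  refine ⟨{e.symm ⟨if n = 4 then 0 else n - 1, by split_ifs <;> omega⟩, e.symm ⟨n - 2, by omega⟩,
    e.symm ⟨n - 1, by omega⟩}, Finset.card_le_three, fun π hπ i hi => e.injective ?_⟩
  simp only [Finset.mem_insert, Finset.mem_singleton, e.eq_symm_apply, Fin.ext_iff] at hi
  have := (e i).2
  simpa using autD h (t.au hπ) (e i) (by split_ifs at hi <;> omega)

/-- At most three nodes are moved by diagram automorphisms. -/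
theorem dg3 (hR : R.Ok) (hA : ¬TyA R) (h : Ex2 R ∨ ∃ n e, 4 ≤ n ∧ Ty R (D n) e) :
    ∃ E : Finset (Fin R.r), E.card ≤ 3 ∧ ∀ π, Dg R π → ∀ i ∉ E, π i = i := by
  rcases h with h | ⟨n, e, l, t⟩
  swap
  · exact t.dg3 l
  have k : (∀ π, Dg R π → π = 1) → ∃ E : Finset (Fin R.r), E.card ≤ 3 ∧
      ∀ π, Dg R π → ∀ i ∉ E, π i = i := fun k => ⟨∅, by simp, fun π hπ i _ => by rw [k π hπ]; rfl⟩
  rcases cls R hR with t | ⟨n, e, l, t⟩ | ⟨n, e, l, t⟩ | ⟨n, e, l, t⟩ | ⟨e, t⟩ | ⟨e, t⟩ |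
    ⟨e, t⟩ | ⟨e, t⟩ | ⟨e, t⟩
  · exact (hA t).elim
  · exact k fun π hπ => pc_one (autB l (t.au hπ))
  · exact k fun π hπ => pc_one (autC (by omega) (t.au hπ))
  · exact t.dg3 l
  · exact (not_x2 (t.ex2.1 h)).elim
  · exact k fun π hπ => pc_one (autE7 (t.au hπ))
  · exact k fun π hπ => pc_one (autE8 (t.au hπ))
  · exact k fun π hπ => pc_one (autF (t.au hπ))
  · exact k fun π hπ => pc_one (autG (t.au hπ))

end Vale.Agent.P011U
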