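import Vale.Agent.P011UD.Shape
import Vale.Agent.P011U.IF2

/-!
The classification of the Cartan matrices.
-/

set_option autoImplicit false
set_option linter.all false

namespace Vale.Agent.P011U

open Vale.Agent.P183CH Vale.Agent.P011UD

theorem ft {R : RS} (h : R.Ok) : FT R.A where
  diag := h.diag
  neg _ _ := h.A_nonpos
  sym _ _ := h.A_zero_comm.1
  conn := h.conn
  pos x h0 h1 := by
    have h2 := h.B_pos h1
    rw [h.B_sum] at h2
    obtain ⟨j, -, h3⟩ := Finset.exists_lt_of_sum_lt (f := fun _ => (0 : ℤ))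
      (Finset.sum_const_zero.trans_lt h2)
    have h4 : 0 < x j := (h0 j).lt_of_ne fun e => by simp [← e] at h3
    have h5 := h.pr_B x j
    have h6 := (mul_pos_iff_of_pos_left h4).1 h3
    rw [h.B_comm x (R.α j)] at h5
    exact ⟨j, h4, (mul_pos_iff_of_pos_right (h.B_α_pos j)).1 (h5 ▸ mul_pos two_pos h6)⟩

theorem cls : CLS := fun R h => by
  have : Nonempty (Fin R.r) := ⟨⟨0, h.pos⟩⟩
  rcases (ft h).res with ⟨n, e⟩ | ⟨n, k, e, l⟩ | ⟨n, k, e, l⟩ | ⟨n, k, e, l⟩ | e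
  exacts [.inl ⟨n, e⟩, .inr (.inl ⟨n, e, k, l⟩), .inr (.inr (.inl ⟨n, e, k, l⟩)),
    .inr (.inr (.inr (.inl ⟨n, e, k, l⟩))), .inr (.inr (.inr (.inr e)))]

end Vale.Agent.P011U
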