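import Mathlib.Algebra.Order.BigOperators.Ring.Finset
import Mathlib.Algebra.BigOperators.Ring.Finset
import Mathlib.Data.Fintype.BigOperators
import Mathlib.Tactic.Linarith

/-!
Cartan matrices of finite type: forbidden subdiagrams.
-/

set_option autoImplicit false
set_option linter.all false

namespace Vale.Agent.P011UD

open Finset

variable {ι : Type} [Fintype ι] {A : ι → ι → ℤ} {g : ℕ → ι} {m l : ℕ} {c : ℕ → ℕ}

/-- Connected Cartan matrices of finite type. -/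
structure FT (A : ι → ι → ℤ) : Prop where
  diag : ∀ i, A i i = 2
  neg : ∀ i j, i ≠ j → A i j ≤ 0
  sym : ∀ i j, A i j = 0 → A j i = 0
  pos : ∀ x : ι → ℤ, 0 ≤ x → x ≠ 0 → ∃ j, 0 < x j ∧ 0 < ∑ i, x i * A i j
  conn : ∀ (P : ι → Prop) (i j : ι), P i → (∀ i j, P i → A j i ≠ 0 → P j) → P j

/-- Injective labellings. -/
def Lab (g : ℕ → ι) (m : ℕ) : Prop := ∀ a < m, ∀ b < m, g a = g b → a = b

/-- Edges. -/
def Ed (A : ι → ι → ℤ) (i j : ι) : Prop := A i j ≤ -1 ∧ A j i ≤ -1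

/-- Paths. -/
def Pa (A : ι → ι → ℤ) (g : ℕ → ι) (l : ℕ) : Prop := ∀ a, a + 1 < l → Ed A (g a) (g (a + 1))

/-- The inequality at a vertex. -/
def Gd (A : ι → ι → ℤ) (g : ℕ → ι) (m : ℕ) (c : ℕ → ℕ) (b : ℕ) : Prop :=
  ∑ a ∈ range m, (c a : ℤ) * A (g a) (g b) ≤ 0

theorem Ed.symm {i j : ι} (h : Ed A i j) : Ed A j i := ⟨h.2, h.1⟩

theorem Pa.pred (h : Pa A g l) {b : ℕ} (h0 : 0 < b) (hb : b < l) : Ed A (g (b - 1)) (g b) := by
  have := h (b - 1) (by omega)
  rwa [show b - 1 + 1 = b by omega] at this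

theorem Lab.comp (hg : Lab g m) {n : ℕ} (σ : ℕ → ℕ) (h1 : ∀ a < n, σ a < m)
    (h2 : ∀ a < n, ∀ b < n, σ a = σ b → a = b) : Lab (fun a => g (σ a)) n :=
  fun a ha b hb e => h2 a ha b hb (hg _ (h1 a ha) _ (h1 b hb) e)

namespace FT

variable (hA : FT A)
include hA

theorem ed {i j : ι} (h : i ≠ j) (h' : A i j ≠ 0) : Ed A i j := by
  have h1 := hA.neg i j h
  have h2 := hA.neg j i h.symm
  have h3 := mt (hA.sym j i) h'
  exact ⟨by omega, by omega⟩

theorem forb (c : ℕ → ℕ) (h0 : ∃ a < m, 0 < c a) (h : ∀ b < m, 0 < c b → Gd A g m c b) :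
    False := by
  classical
  obtain ⟨a, ha, hc⟩ := h0
  have hn : ∀ i, ∀ a ∈ range m, (0 : ℤ) ≤ if g a = i then (c a : ℤ) else 0 := fun i a _ => by
    split_ifs <;> omega
  obtain ⟨j, h1, h2⟩ := hA.pos (fun i => ∑ a ∈ range m, if g a = i then (c a : ℤ) else 0)
    (fun i => sum_nonneg (hn i)) fun e => by
      have := (sum_eq_zero_iff_of_nonneg (hn (g a))).1 (congrFun e (g a)) a (mem_range.2 ha)
      rw [if_pos rfl] at this
      omega
  obtain ⟨b, hb, h3⟩ := exists_ne_zero_of_sum_ne_zero h1.ne'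
  have h4 : g b = j := by
    by_contra e
    exact h3 (if_neg e)
  rw [if_pos h4] at h3
  subst h4
  refine (h b (mem_range.1 hb) (by omega)).not_gt (h2.trans_eq ?_)
  simp only [sum_mul]
  rw [sum_comm]
  exact sum_congr rfl fun a _ => by simp

variable (hg : Lab g m) {b : ℕ} (hb : b < m)
include hg hb

theorem gS (N : Finset ℕ) (h1 : ∀ a ∈ N, a < m ∧ a ≠ b)
    (h2 : 2 * (c b : ℤ) + ∑ a ∈ N, (c a : ℤ) * A (g a) (g b) ≤ 0) : Gd A g m c b := by
  have h3 : b ∉ N := fun e => (h1 b e).2 rfl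
  have h4 : insert b N ⊆ range m :=
    insert_subset (mem_range.2 hb) fun a ha => mem_range.2 (h1 a ha).1
  rw [Gd, ← sum_sdiff h4, sum_insert h3, hA.diag]
  have h5 : ∑ a ∈ range m \ insert b N, (c a : ℤ) * A (g a) (g b) ≤ 0 :=
    sum_nonpos fun a ha => mul_nonpos_of_nonneg_of_nonpos (by omega) (hA.neg _ _ fun e => by
      rw [mem_sdiff, mem_range, mem_insert] at ha
      exact ha.2 (Or.inl (hg a ha.1 b hb e)))
  linarith

omit hg hb in
theorem ne_of {a : ℕ} {e : ℤ} (h : A (g a) (g b) ≤ -e) (he : 0 ≤ e) : a ≠ b := by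
  rintro rfl
  rw [hA.diag] at h
  omega

theorem g3 {a₁ a₂ a₃ : ℕ} (k₁ : a₁ < m) (k₂ : a₂ < m) (k₃ : a₃ < m) (n₁ : a₁ ≠ a₂) (n₂ : a₁ ≠ a₃)
    (n₃ : a₂ ≠ a₃) (h₁ : Ed A (g a₁) (g b)) (h₂ : Ed A (g a₂) (g b)) (h₃ : Ed A (g a₃) (g b))
    (h : 2 * c b ≤ c a₁ + c a₂ + c a₃) : Gd A g m c b := by
  refine hA.gS hg hb {a₁, a₂, a₃} (fun a ha => ?_) ?_
  · simp only [mem_insert, mem_singleton] at ha
    rcases ha with rfl | rfl | rfl
    exacts [⟨k₁, hA.ne_of h₁.1 one_pos.le⟩, ⟨k₂, hA.ne_of h₂.1 one_pos.le⟩,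
      ⟨k₃, hA.ne_of h₃.1 one_pos.le⟩]
  · rw [sum_insert (by simp [n₁, n₂]), sum_pair n₃]
    have := mul_le_mul_of_nonneg_left h₁.1 (Int.natCast_nonneg (c a₁))
    have := mul_le_mul_of_nonneg_left h₂.1 (Int.natCast_nonneg (c a₂))
    have := mul_le_mul_of_nonneg_left h₃.1 (Int.natCast_nonneg (c a₃))
    omega

theorem g2 {a₁ a₂ : ℕ} (e : ℕ) (k₁ : a₁ < m) (k₂ : a₂ < m) (n₁ : a₁ ≠ a₂)
    (h₁ : A (g a₁) (g b) ≤ -e) (h₂ : Ed A (g a₂) (g b)) (h : 2 * c b ≤ e * c a₁ + c a₂) :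
    Gd A g m c b := by
  refine hA.gS hg hb {a₁, a₂} (fun a ha => ?_) ?_
  · simp only [mem_insert, mem_singleton] at ha
    rcases ha with rfl | rfl
    exacts [⟨k₁, hA.ne_of h₁ (by omega)⟩, ⟨k₂, hA.ne_of h₂.1 one_pos.le⟩]
  · rw [sum_pair n₁]
    have := mul_le_mul_of_nonneg_left h₁ (Int.natCast_nonneg (c a₁))
    have := mul_le_mul_of_nonneg_left h₂.1 (Int.natCast_nonneg (c a₂))
    have h' : 2 * (c b : ℤ) ≤ e * c a₁ + c a₂ := by exact_mod_cast h
    linarith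

theorem g1 {a₁ : ℕ} (e : ℕ) (k₁ : a₁ < m) (h₁ : A (g a₁) (g b) ≤ -e) (h : 2 * c b ≤ e * c a₁) :
    Gd A g m c b := by
  refine hA.gS hg hb {a₁} (fun a ha => ?_) ?_
  · rw [mem_singleton.1 ha]
    exact ⟨k₁, hA.ne_of h₁ (by omega)⟩
  · rw [sum_singleton]
    have := mul_le_mul_of_nonneg_left h₁ (Int.natCast_nonneg (c a₁))
    have h' : 2 * (c b : ℤ) ≤ e * c a₁ := by exact_mod_cast h
    linarith

omit hb in
theorem gp (hp : Pa A g l) (hl : l ≤ m) (hb : b < l) (hc : 0 < c b)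
    (h : 2 * c b ≤ (if b = 0 then 0 else c (b - 1)) + if b + 1 < l then c (b + 1) else 0) :
    Gd A g m c b := by
  split_ifs at h with h1 h2 h2
  · exact hA.g1 hg (by omega) 1 (by omega) (hp b h2).2 (by omega)
  · omega
  · exact hA.g2 hg (by omega) 1 (a₁ := b - 1) (by omega) (by omega) (by omega)
      (hp.pred (by omega) hb).1 (hp b h2).symm (by omega)
  · exact hA.g1 hg (by omega) 1 (a₁ := b - 1) (by omega) (hp.pred (by omega) hb).1 (by omega)

omit hb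

variable (hp : Pa A g l) (hl : l ≤ m)
include hp hl

/-- no cycles -/
theorem cyc {s t u : ℕ} (h1 : s < t) (h2 : t < l) (h3 : u < m) (h4 : u < s ∨ t < u)
    (hs : Ed A (g u) (g s)) (ht : Ed A (g u) (g t)) : False := by
  refine hA.forb (g := g) (m := m) (fun a => if (s ≤ a ∧ a ≤ t) ∨ a = u then 1 else 0)
    ⟨u, h3, by simp⟩ fun b hb hc => ?_
  by_cases e1 : b = u
  · subst e1
    exact hA.g2 hg hb 1 (by omega) (by omega) h1.ne hs.2 ht.symm (by split_ifs <;> omega)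
  by_cases e2 : b = s
  · subst e2
    exact hA.g2 hg hb 1 h3 (by omega) (by omega) hs.1 (hp b (by omega)).symm
      (by split_ifs <;> omega)
  by_cases e3 : b = t
  · subst e3
    exact hA.g2 hg hb 1 h3 (by omega) (by omega) ht.1 (hp.pred (by omega) h2)
      (by split_ifs <;> omega)
  have h5 : s < b ∧ b < t := by split_ifs at hc <;> omega
  exact hA.gp hg hp hl (by omega) hc (by split_ifs <;> omega)

/-- three arms -/
theorem tri {k r N α β γ : ℕ} (hm : m = l + r) (h0 : 0 < k) (hk : k + 1 < l)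
    (hv : Ed A (g l) (g k)) (hw : r = 2 → Ed A (g (l + 1)) (g l))
    (h : (N = 3 ∧ α = 1 ∧ β = 1 ∧ γ = 1 ∧ r = 2) ∨ (N = 4 ∧ α = 1 ∧ β = 1 ∧ γ = 2 ∧ r = 1) ∨
      (N = 6 ∧ α = 1 ∧ β = 2 ∧ γ = 3 ∧ r = 1))
    (h1 : N ≤ α * (k + 1)) (h2 : N ≤ β * (l - k)) : False := by
  refine hA.forb (g := g) (m := m) (fun a => if a ≤ k then N - α * (k - a) else
    if a < l then N - β * (a - k) else N - γ * (a + 1 - l)) ⟨k, by omega, by simp; omega⟩
    fun b hb hc => ?_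
  rcases h with h | h | h <;> obtain ⟨rfl, rfl, rfl, rfl, rfl⟩ := h
  all_goals
    by_cases e1 : b = k
    · subst e1
      exact hA.g3 hg hb (by omega) (by omega) (by omega) (by omega) (by omega) (by omega)
        (hp.pred h0 (by omega)) (hp b hk).symm hv (by split_ifs <;> omega)
    by_cases e2 : b < l
    · exact hA.gp hg hp hl e2 hc (by split_ifs at hc ⊢ <;> omega)
  · by_cases e3 : b = l
    · subst e3
      exact hA.g2 hg hb 1 (by omega) (by omega) (by omega) hv.2 (hw rfl) (by split_ifs <;> omega)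
    · obtain rfl : b = l + 1 := by omega
      exact hA.g1 hg hb 1 (by omega) (hw rfl).2 (by split_ifs <;> omega)
  all_goals
    obtain rfl : b = l := by omega
    exact hA.g1 hg hb 1 (by omega) hv.2 (by split_ifs <;> omega)

/-- two arms joined by a multiple edge -/
theorem two {k e f N α M β : ℕ} (hk : k + 1 < l) (he : A (g k) (g (k + 1)) ≤ -e)
    (hf : A (g (k + 1)) (g k) ≤ -f)
    (h : (e = 2 ∧ f = 2 ∧ N = 1 ∧ α = 1 ∧ M = 1 ∧ β = 1) ∨
      (e = 4 ∧ f = 1 ∧ N = 1 ∧ α = 1 ∧ M = 2 ∧ β = 2) ∨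
      (e = 3 ∧ f = 1 ∧ N = 1 ∧ α = 1 ∧ M = 2 ∧ β = 1) ∨
      (e = 3 ∧ f = 1 ∧ N = 2 ∧ α = 1 ∧ M = 3 ∧ β = 3) ∨
      (e = 2 ∧ f = 1 ∧ N = 3 ∧ α = 1 ∧ M = 4 ∧ β = 2) ∨
      (e = 2 ∧ f = 1 ∧ N = 2 ∧ α = 1 ∧ M = 3 ∧ β = 1))
    (h1 : N ≤ α * (k + 1)) (h2 : M ≤ β * (l - (k + 1))) : False := by
  refine hA.forb (g := g) (m := m) (fun a => if a ≤ k then N - α * (k - a) else
    if a < l then M - β * (a - (k + 1)) else 0) ⟨k, by omega, by simp; omega⟩ fun b hb hc => ?_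
  rcases h with h | h | h | h | h | h <;> obtain ⟨rfl, rfl, rfl, rfl, rfl, rfl⟩ := h
  all_goals
    by_cases e1 : b = k
    · subst e1
      by_cases e2 : b = 0
      · exact hA.g1 hg hb _ (by omega) hf (by split_ifs <;> omega)
      · exact hA.g2 hg hb _ (by omega) (by omega) (by omega) hf (hp.pred (by omega) (by omega))
          (by split_ifs <;> omega)
    by_cases e2 : b = k + 1
    · subst e2
      by_cases e3 : k + 1 + 1 < l
      · exact hA.g2 hg hb _ (by omega) (by omega) (by omega) he (hp _ e3).symm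
          (by split_ifs <;> omega)
      · exact hA.g1 hg hb _ (by omega) he (by split_ifs <;> omega)
    have e3 : b < l := by split_ifs at hc <;> omega
    exact hA.gp hg hp hl e3 hc (by split_ifs at hc ⊢ <;> omega)

end FT

/-- The end of a segment: a fork or a multiple edge. -/
def Cap (A : ι → ι → ℤ) (g : ℕ → ι) (s : ℕ) (X : Finset ℕ) : Prop :=
  ∃ c : ℕ → ℕ, (∀ x ∈ X, A (g s) (g x) ≤ -c x) ∧ ∑ x ∈ X, (c x : ℤ) * A (g x) (g s) ≤ -2

theorem cap_fork {s x y : ℕ} (h : x ≠ y) (hx : Ed A (g x) (g s)) (hy : Ed A (g y) (g s)) :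
    Cap A g s {x, y} := by
  refine ⟨fun _ => 1, fun a ha => ?_, ?_⟩
  · simp only [mem_insert, mem_singleton] at ha
    rcases ha with rfl | rfl
    exacts [hx.2, hy.2]
  · rw [sum_pair h]
    have := hx.1
    have := hy.1
    simp only []
    omega

theorem cap_mul {s x : ℕ} (hx : Ed A (g x) (g s)) (h : A (g x) (g s) ≠ -1 ∨ A (g s) (g x) ≠ -1) :
    Cap A g s {x} := by
  have := hx.1
  have := hx.2
  rcases h with h | h
  · exact ⟨fun _ => 1, fun a ha => mem_singleton.1 ha ▸ hx.2, by simp; omega⟩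
  · exact ⟨fun _ => 2, fun a ha => by rw [mem_singleton.1 ha]; simp; omega, by simp; omega⟩

/-- a segment with two ends -/
theorem FT.seg (hA : FT A) (hg : Lab g m) (hp : Pa A g l) (hl : l ≤ m) {s t : ℕ} {X Y : Finset ℕ}
    (h1 : s ≤ t) (h2 : t < l) (hX : Cap A g s X) (hY : Cap A g t Y)
    (h3 : ∀ x ∈ X, x < m ∧ (x < s ∨ t < x) ∧ x ∉ Y) (h4 : ∀ x ∈ Y, x < m ∧ (x < s ∨ t < x)) :
    False := by
  obtain ⟨p, p1, p2⟩ := hX
  obtain ⟨q, q1, q2⟩ := hY
  obtain ⟨c, c1, c2, c3, c4⟩ : ∃ c : ℕ → ℕ, (∀ a, s ≤ a → a ≤ t → c a = 2) ∧ (∀ a ∈ X, c a = p a) ∧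
      (∀ a ∈ Y, c a = q a) ∧ ∀ a, 0 < c a → (s ≤ a ∧ a ≤ t) ∨ a ∈ X ∨ a ∈ Y := by
    refine ⟨fun a => if s ≤ a ∧ a ≤ t then 2 else if a ∈ X then p a else if a ∈ Y then q a else 0,
      fun a k1 k2 => if_pos ⟨k1, k2⟩, fun a ha => ?_, fun a ha => ?_, fun a ha => ?_⟩
    · have := (h3 a ha).2.1
      exact (if_neg (by omega)).trans (if_pos ha)
    · have := (h4 a ha).2
      exact (if_neg (by omega)).trans ((if_neg fun e => (h3 a e).2.2 ha).trans (if_pos ha))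
    · simp only [] at ha
      split_ifs at ha with k1 k2 k3
      exacts [Or.inl k1, Or.inr (Or.inl k2), Or.inr (Or.inr k3), absurd ha (lt_irrefl 0)]
  replace p2 : ∑ x ∈ X, (c x : ℤ) * A (g x) (g s) ≤ -2 :=
    (sum_congr rfl fun a ha => by rw [c2 a ha]).trans_le p2
  replace q2 : ∑ x ∈ Y, (c x : ℤ) * A (g x) (g t) ≤ -2 :=
    (sum_congr rfl fun a ha => by rw [c3 a ha]).trans_le q2
  refine hA.forb (g := g) (m := m) c ⟨s, by omega, by rw [c1 s le_rfl h1]; omega⟩ fun b hb hc => ?_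
  rcases c4 b hc with ⟨k1, k2⟩ | k | k
  · have k3 := c1 b k1 k2
    rcases k1.eq_or_lt with rfl | k1 <;> rcases k2.eq_or_lt with rfl | k2
    · refine hA.gS hg hb (X ∪ Y) (fun a ha => ?_) ?_
      · rcases mem_union.1 ha with e | e
        exacts [⟨(h3 a e).1, by have := (h3 a e).2.1; omega⟩, ⟨(h4 a e).1, by
          have := (h4 a e).2; omega⟩]
      · rw [sum_union (disjoint_left.2 fun a e => (h3 a e).2.2)]
        omega
    · have := (hp s (by omega)).2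
      refine hA.gS hg hb (insert (s + 1) X) (fun a ha => ?_) ?_
      · rcases mem_insert.1 ha with rfl | e
        exacts [by omega, ⟨(h3 a e).1, by have := (h3 a e).2.1; omega⟩]
      · rw [sum_insert fun e => by have := (h3 _ e).2.1; omega, c1 (s + 1) (by omega) k2]
        omega
    · have := (hp.pred (b := b) (by omega) h2).1
      refine hA.gS hg hb (insert (b - 1) Y) (fun a ha => ?_) ?_
      · rcases mem_insert.1 ha with rfl | e
        exacts [by omega, ⟨(h4 a e).1, by have := (h4 a e).2; omega⟩]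
      · rw [sum_insert fun e => by have := (h4 _ e).2; omega, c1 (b - 1) (by omega) (by omega)]
        omega
    · have := c1 (b - 1) (by omega) (by omega)
      have := c1 (b + 1) (by omega) k2
      exact hA.gp hg hp hl (by omega) hc (by split_ifs <;> omega)
  · exact hA.g1 hg hb (p b) (by omega) (p1 b k) (by rw [c1 s le_rfl h1, c2 b k]; omega)
  · exact hA.g1 hg hb (q b) (by omega) (q1 b k) (by rw [c1 t h1 le_rfl, c3 b k]; omega)

end Vale.Agent.P011UD
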