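import Vale.Agent.P011UD.Forb
import Mathlib.LinearAlgebra.Matrix.Cartan
import Mathlib.Tactic.FinCases

/-!
Cartan matrices of finite type: the classification.
-/

set_option autoImplicit false
set_option linter.all false

namespace Vale.Agent.P011UD

open Finset

variable {ι : Type} [Fintype ι] {A : ι → ι → ℤ} {g : ℕ → ι} {m l k : ℕ}

/-- `A` is `C` after a renumbering. -/
def Is (A : ι → ι → ℤ) {n : ℕ} (C : Matrix (Fin n) (Fin n) ℤ) : Prop :=
  ∃ e : ι ≃ Fin n, ∀ i j, A i j = C (e i) (e j)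

/-- The list. -/
def Res (A : ι → ι → ℤ) : Prop := (∃ n, Is A (CartanMatrix.A n)) ∨
  (∃ n, 2 ≤ n ∧ Is A (CartanMatrix.B n)) ∨ (∃ n, 3 ≤ n ∧ Is A (CartanMatrix.C n)) ∨
  (∃ n, 4 ≤ n ∧ Is A (CartanMatrix.D n)) ∨ Is A CartanMatrix.E₆ ∨ Is A CartanMatrix.E₇ ∨
  Is A CartanMatrix.E₈ ∨ Is A CartanMatrix.F₄ ∨ Is A CartanMatrix.G₂

/-- Surjective labellings. -/
def Sur (g : ℕ → ι) (m : ℕ) : Prop := ∀ i, ∃ a < m, g a = i

theorem mk_is (hg : Lab g m) (hs : Sur g m) {C : Matrix (Fin m) (Fin m) ℤ}
    (h : ∀ a b : Fin m, A (g a) (g b) = C a b) : Is A C := by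
  have hb : Function.Bijective fun a : Fin m => g a :=
    ⟨fun a b e => Fin.ext (hg _ a.2 _ b.2 e), fun i => let ⟨a, h1, h2⟩ := hs i; ⟨⟨a, h1⟩, h2⟩⟩
  refine ⟨(Equiv.ofBijective _ hb).symm, fun i j => ?_⟩
  rw [← h]
  exact congrArg₂ A (Equiv.ofBijective_apply_symm_apply _ hb i).symm
    (Equiv.ofBijective_apply_symm_apply _ hb j).symm

theorem Sur.comp (hs : Sur g m) {n : ℕ} (σ : ℕ → ℕ) (h : ∀ a < m, ∃ b < n, σ b = a) :
    Sur (fun a => g (σ a)) n := fun i =>
  let ⟨a, h1, h2⟩ := hs i
  let ⟨b, h3, h4⟩ := h a h1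
  ⟨b, h3, (congrArg g h4).trans h2⟩

/-- The reflection of a path. -/
def rf (l a : ℕ) : ℕ := if a < l then l - 1 - a else a

theorem Lab.rf (hg : Lab g m) (hl : l ≤ m) : Lab (fun a => g (rf l a)) m :=
  hg.comp _ (fun a ha => by unfold P011UD.rf; split_ifs <;> omega) fun a ha b hb => by
    unfold P011UD.rf; split_ifs <;> omega

theorem Sur.rf (hs : Sur g m) (hl : l ≤ m) : Sur (fun a => g (rf l a)) m :=
  hs.comp _ fun a ha => ⟨P011UD.rf l a, by unfold P011UD.rf; split_ifs <;> omega, by
    unfold P011UD.rf; split_ifs <;> omega⟩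

theorem Pa.rf (hp : Pa A g l) : Pa A (fun a => g (rf l a)) l := fun a ha => by
  have := (hp.pred (b := l - 1 - a) (by omega) (by omega)).symm
  simp only [P011UD.rf]
  rwa [if_pos (by omega), if_pos ha, show l - 1 - (a + 1) = l - 1 - a - 1 by omega]

namespace FT

variable (hA : FT A) (hg : Lab g m) (hp : Pa A g l) (hl : l ≤ m)
include hA hg hp hl

theorem far {a b : ℕ} (h : a + 1 < b) (hb : b < l) : A (g a) (g b) = 0 ∧ A (g b) (g a) = 0 := by
  have h1 : A (g a) (g b) = 0 := by
    by_contra c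
    have h2 := hA.ed (fun e => by have := hg a (by omega) b (by omega) e; omega) c
    exact hA.cyc hg hp hl (s := a) (t := b - 1) (by omega) (by omega) (by omega) (by omega) h2.symm
      (hp.pred (by omega) hb).symm
  exact ⟨h1, hA.sym _ _ h1⟩

theorem entry {e : ℤ} (h : ∀ a, a + 1 < l → A (g a) (g (a + 1)) = (if a = k then e else -1) ∧
    A (g (a + 1)) (g a) = -1) {a b : ℕ} (ha : a < l) (hb : b < l) : A (g a) (g b) =
      if a = b then 2 else if a + 1 = b then (if a = k then e else -1) else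
        if b + 1 = a then -1 else 0 := by
  by_cases h1 : a = b
  · rw [if_pos h1, h1, hA.diag]
  rw [if_neg h1]
  by_cases h2 : a + 1 = b
  · subst h2
    rw [if_pos rfl, (h a hb).1]
  rw [if_neg h2]
  by_cases h3 : b + 1 = a
  · subst h3
    rw [if_pos rfl, (h b ha).2]
  rw [if_neg h3]
  rcases lt_or_gt_of_ne h1 with h4 | h4
  exacts [(hA.far hg hp hl (by omega) hb).1, (hA.far hg hp hl (by omega) ha).2]

omit hl hg hp

theorem path_mul (hg : Lab g l) (hp : Pa A g l) (hs : Sur g l) (hk : k + 1 < l)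
    (h : A (g k) (g (k + 1)) ≠ -1) : Res A := by
  have h1 := (hp k hk).1
  have h2 := (hp k hk).2
  have h3 : A (g (k + 1)) (g k) = -1 := by
    by_contra c
    exact hA.two hg hp le_rfl hk (e := 2) (f := 2) (by omega) (by omega) (by simp; exact ⟨rfl, rfl,
      rfl, rfl⟩) (by omega) (by omega)
  have h4 : ∀ a, a + 1 < l → A (g a) (g (a + 1)) =
      (if a = k then A (g k) (g (k + 1)) else -1) ∧ A (g (a + 1)) (g a) = -1 := fun a ha => by
    by_cases e : a = k
    · rw [if_pos e, e]
      exact ⟨rfl, h3⟩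
    rw [if_neg e]
    by_contra c
    rw [not_and_or] at c
    rcases lt_or_gt_of_ne e with e | e
    · exact hA.seg hg hp le_rfl (s := a + 1) (t := k) e (by omega) (cap_mul (hp a ha) c)
        (cap_mul (hp k hk).symm (Or.inr h)) (by simp; omega) (by simp; omega)
    · exact hA.seg hg hp le_rfl (s := k + 1) (t := a) e (by omega) (cap_mul (hp k hk) (Or.inl h))
        (cap_mul (hp a ha).symm c.symm) (by simp; omega) (by simp; omega)
  have h5 := fun a b => hA.entry hg hp le_rfl h4 (a := a) (b := b)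
  by_cases e4 : A (g k) (g (k + 1)) ≤ -4
  · exact (hA.two hg hp le_rfl hk (e := 4) (f := 1) e4 h2 (by simp; exact ⟨rfl, rfl, rfl, rfl⟩)
      (by omega) (by omega)).elim
  by_cases e3 : A (g k) (g (k + 1)) = -3
  · by_cases k1 : k + 2 < l
    · exact (hA.two hg hp le_rfl hk (e := 3) (f := 1) (N := 1) (α := 1) (M := 2) (β := 1) e3.le h2
        (by simp) (by omega) (by omega)).elim
    by_cases k2 : 0 < k
    · exact (hA.two hg hp le_rfl hk (e := 3) (f := 1) (N := 2) (α := 1) (M := 3) (β := 3) e3.le h2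
        (by simp) (by omega) (by omega)).elim
    obtain rfl : k = 0 := by omega
    obtain rfl : l = 2 := by omega
    refine .inr (.inr (.inr (.inr (.inr (.inr (.inr (.inr (mk_is hg hs fun a b => ?_))))))))
    rw [h5 _ _ a.2 b.2, e3]
    fin_cases a <;> fin_cases b <;> rfl
  have e2 : A (g k) (g (k + 1)) = -2 := by omega
  rw [e2] at h5
  by_cases k1 : k + 2 = l
  · refine .inr (.inl ⟨l, by omega, mk_is hg hs fun a b => ?_⟩)
    rw [h5 _ _ a.2 b.2]
    simp only [CartanMatrix.B, Matrix.of_apply, Fin.ext_iff]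
    split_ifs <;> omega
  by_cases k2 : k = 0
  · refine .inr (.inr (.inl ⟨l, by omega, mk_is (hg.rf le_rfl) (hs.rf le_rfl) fun a b => ?_⟩))
    have := a.2
    have := b.2
    simp only [rf, if_pos a.2, if_pos b.2]
    rw [h5 _ _ (by omega) (by omega)]
    simp only [CartanMatrix.C, Matrix.of_apply, Fin.ext_iff]
    split_ifs <;> omega
  by_cases k3 : 1 < k
  · exact (hA.two hg hp le_rfl hk (e := 2) (f := 1) (N := 3) (α := 1) (M := 4) (β := 2) e2.le h2
      (by simp) (by omega) (by omega)).elim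
  by_cases k4 : k + 3 < l
  · exact (hA.two hg hp le_rfl hk (e := 2) (f := 1) (N := 2) (α := 1) (M := 3) (β := 1) e2.le h2
      (by simp) (by omega) (by omega)).elim
  obtain rfl : k = 1 := by omega
  obtain rfl : l = 4 := by omega
  refine .inr (.inr (.inr (.inr (.inr (.inr (.inr (.inl (mk_is hg hs fun a b => ?_))))))))
  rw [h5 _ _ a.2 b.2]
  fin_cases a <;> fin_cases b <;> rfl

theorem path (hg : Lab g l) (hp : Pa A g l) (hs : Sur g l) : Res A := by
  by_cases h : ∀ a, a + 1 < l → A (g a) (g (a + 1)) = -1 ∧ A (g (a + 1)) (g a) = -1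
  · refine .inl ⟨l, mk_is hg hs fun a b => ?_⟩
    rw [hA.entry hg hp le_rfl (k := 0) (e := -1) (fun a ha => by simpa using h a ha) a.2 b.2]
    simp only [CartanMatrix.A, Matrix.of_apply, Fin.ext_iff]
    split_ifs <;> omega
  push Not at h
  obtain ⟨k, hk, h⟩ := h
  by_cases h1 : A (g k) (g (k + 1)) = -1
  · refine hA.path_mul (hg.rf le_rfl) hp.rf (hs.rf le_rfl) (k := l - 2 - k) (by omega) ?_
    simp only [rf]
    rw [if_pos (by omega), if_pos (by omega), show l - 1 - (l - 2 - k) = k + 1 by omega,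
      show l - 1 - (l - 2 - k + 1) = k by omega]
    exact h h1
  · exact hA.path_mul hg hp hs hk h1

theorem fork (hg : Lab g (l + 1)) (hp : Pa A g l) (hs : Sur g (l + 1)) (h0 : 0 < k)
    (hk : k + 1 < l) (hv : Ed A (g l) (g k)) (hw : l ≤ 2 * k + 1) : Res A := by
  have hl : l ≤ l + 1 := by omega
  have p1 := hp.pred h0 (by omega : k < l)
  have p2 := (hp k hk).symm
  have h1 : ∀ a, a + 1 < l → A (g a) (g (a + 1)) = (if a = 0 then -1 else -1) ∧
      A (g (a + 1)) (g a) = -1 := fun a ha => by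
    rw [ite_self]
    by_contra c
    rw [not_and_or] at c
    rcases lt_or_ge a k with e | e
    · exact hA.seg hg hp hl (s := a + 1) (t := k) e (by omega) (cap_mul (hp a ha) c)
        (cap_fork (by omega) p2 hv) (by simp; omega) (by simp; omega)
    · exact hA.seg hg hp hl (s := k) (t := a) e (by omega) (cap_fork (by omega) p1 hv)
        (cap_mul (hp a ha).symm c.symm) (by simp; omega) (by simp; omega)
  have h2 : A (g l) (g k) = -1 ∧ A (g k) (g l) = -1 := by
    by_contra c
    rw [not_and_or] at c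
    exact hA.seg hg hp hl le_rfl (by omega) (cap_fork (by omega) p1 p2) (cap_mul hv c)
      (by simp; omega) (by simp; omega)
  have h3 : ∀ a < l, a ≠ k → A (g l) (g a) = 0 := fun a ha e => by
    by_contra c
    have h4 := hA.ed (fun e => by have := hg l (by omega) a (by omega) e; omega) c
    rcases lt_or_gt_of_ne e with e | e
    · exact hA.cyc hg hp hl e (by omega) (by omega) (by omega) h4 hv
    · exact hA.cyc hg hp hl e ha (by omega) (by omega) hv h4
  have h5 : ∀ a b, a < l + 1 → b < l + 1 → A (g a) (g b) = if a = b then 2 else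
      if a = l then (if b = k then -1 else 0) else if b = l then (if a = k then -1 else 0) else
        if a + 1 = b ∨ b + 1 = a then -1 else 0 := fun a b ha hb => by
    by_cases e1 : a = b
    · rw [if_pos e1, e1, hA.diag]
    rw [if_neg e1]
    by_cases e2 : a = l
    · rw [if_pos e2, e2]
      split_ifs with e3
      exacts [e3 ▸ h2.1, h3 b (by omega) e3]
    rw [if_neg e2]
    by_cases e3 : b = l
    · rw [if_pos e3, e3]
      split_ifs with e4
      exacts [e4 ▸ h2.2, hA.sym _ _ (h3 a (by omega) e4)]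
    rw [if_neg e3, hA.entry hg hp hl h1 (by omega) (by omega)]
    split_ifs <;> omega
  by_cases k1 : k + 2 = l
  · refine .inr (.inr (.inr (.inl ⟨l + 1, by omega, mk_is hg hs fun a b => ?_⟩)))
    have := a.2
    have := b.2
    rw [h5 _ _ a.2 b.2]
    simp only [CartanMatrix.D, Matrix.of_apply, Fin.ext_iff]
    split_ifs <;> omega
  by_cases k2 : k + 3 < l
  · exact (hA.tri hg hp hl (r := 1) (N := 4) (α := 1) (β := 1) (γ := 2) rfl h0 hk hv (by simp)
      (by simp) (by omega) (by omega)).elim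
  by_cases k3 : 4 < k
  · exact (hA.tri hg hp hl (r := 1) (N := 6) (α := 1) (β := 2) (γ := 3) rfl h0 hk hv (by simp)
      (by simp) (by omega) (by omega)).elim
  have h6 : ∀ C : Matrix (Fin (l + 1)) (Fin (l + 1)) ℤ, (∀ a b : Fin (l + 1),
      A (g (if a.1 = 0 then l - 1 else if a.1 = 1 then l else l - a))
        (g (if b.1 = 0 then l - 1 else if b.1 = 1 then l else l - b)) = C a b) → Is A C :=
    fun C => mk_is (g := fun a => g (if a = 0 then l - 1 else if a = 1 then l else l - a))
      (hg.comp _ (fun a ha => by split_ifs <;> omega) fun a ha b hb => by split_ifs <;> omega)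
      (hs.comp _ fun a ha => ⟨if a = l then 1 else if a + 1 = l then 0 else l - a,
        by split_ifs <;> omega, by split_ifs <;> first | omega | contradiction⟩)
  have k4 : k = 2 ∨ k = 3 ∨ k = 4 := by omega
  obtain rfl : l = k + 3 := by omega
  rcases k4 with rfl | rfl | rfl
  on_goal 1 => refine .inr (.inr (.inr (.inr (.inl (h6 _ fun a b => ?_)))))
  on_goal 2 => refine .inr (.inr (.inr (.inr (.inr (.inl (h6 _ fun a b => ?_))))))
  on_goal 3 => refine .inr (.inr (.inr (.inr (.inr (.inr (.inl (h6 _ fun a b => ?_)))))))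
  all_goals
    rw [h5 _ _ (by split_ifs <;> omega) (by split_ifs <;> omega)]
    fin_cases a <;> fin_cases b <;> rfl

theorem ext (hg : Lab g m) (h0 : 0 < m) (hs : ¬Sur g m) : ∃ g' : ℕ → ι, (∀ a < m, g' a = g a) ∧
    Lab g' (m + 1) ∧ ∃ k < m, Ed A (g' m) (g' k) := by
  classical
  obtain ⟨i, j, ⟨k, h1, rfl⟩, h2, h3⟩ : ∃ i j, (∃ a < m, g a = i) ∧ A j i ≠ 0 ∧
      ¬∃ a < m, g a = j := by
    by_contra c
    exact hs fun j => hA.conn (fun i => ∃ a < m, g a = i) (g 0) j ⟨0, h0, rfl⟩ fun i j k1 k2 => by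
      by_contra k3
      exact c ⟨i, j, k1, k2, k3⟩
  refine ⟨fun a => if a < m then g a else j, fun a ha => if_pos ha, fun a ha b hb => ?_, k, h1, ?_⟩
  · simp only []
    split_ifs with k1 k2 k2
    exacts [hg a k1 b k2, fun e => (h3 ⟨a, k1, e⟩).elim, fun e => (h3 ⟨b, k2, e.symm⟩).elim,
      fun _ => by omega]
  · simp only [if_pos h1, lt_irrefl, if_false]
    exact hA.ed (fun e => h3 ⟨k, h1, e.symm⟩) h2

theorem res [Nonempty ι] : Res A := by
  classical
  obtain ⟨l, h0, ⟨g, hg, hp⟩, hm⟩ : ∃ l, 0 < l ∧ (∃ g, Lab g l ∧ Pa A g l) ∧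
      ∀ g, Lab g (l + 1) → ¬Pa A g (l + 1) := by
    by_contra c
    have h : ∀ l, ∃ g, Lab g (l + 1) ∧ Pa A g (l + 1) := fun l => by
      induction l with
      | zero => exact ⟨fun _ => Classical.arbitrary ι, fun a _ b _ _ => by omega,
          fun a _ => by omega⟩
      | succ l ih =>
        by_contra k
        exact c ⟨l + 1, by omega, ih, fun g k1 k2 => k ⟨g, k1, k2⟩⟩
    obtain ⟨g, hg, -⟩ := h (Fintype.card ι)
    have := Fintype.card_le_of_injective (fun a : Fin (Fintype.card ι + 1) => g a)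
      fun a b e => Fin.ext (hg _ a.2 _ b.2 e)
    simp at this
  have inn : ∀ {g m u k}, Lab g m → Pa A g l → l ≤ u → u < m → k < l → Ed A (g u) (g k) →
      0 < k ∧ k + 1 < l := fun {g m u k} hg hp h1 h2 h3 h4 => by
    refine ⟨Nat.pos_of_ne_zero ?_, lt_of_le_of_ne h3 ?_⟩
    · rintro rfl
      refine hm _ (hg.comp (fun a => if a = 0 then u else a - 1) (fun a ha => by split_ifs <;> omega)
        fun a ha b hb => by split_ifs <;> omega) fun a ha => ?_
      by_cases e : a = 0
      · simpa [e] using h4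
      · simp only [e, if_false, Nat.add_one_ne_zero, Nat.add_sub_cancel]
        exact hp.pred (by omega) (by omega)
    · intro (h5 : k + 1 = l)
      refine hm _ (hg.comp (fun a => if a < l then a else u)
        (fun a ha => by split_ifs <;> omega) fun a ha b hb => by split_ifs <;> omega) fun a ha => ?_
      rw [if_pos (by omega)]
      split_ifs with e
      · exact hp a e
      · exact (show k = a by omega) ▸ h4.symm
  by_cases s1 : Sur g l
  · exact hA.path hg hp s1
  obtain ⟨g₁, e₁, hg₁, k, hk, hv⟩ := hA.ext hg h0 s1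
  have hp₁ : Pa A g₁ l := fun a ha => by
    rw [e₁ a (by omega), e₁ _ ha]
    exact hp a ha
  obtain ⟨k1, k2⟩ := inn hg₁ hp₁ le_rfl (by omega) hk hv
  by_cases s2 : Sur g₁ (l + 1)
  · rcases le_or_gt l (2 * k + 1) with e | e
    · exact hA.fork hg₁ hp₁ s2 k1 k2 hv e
    · refine hA.fork (hg₁.rf (by omega)) hp₁.rf (s2.rf (by omega)) (k := l - 1 - k) (by omega)
        (by omega) ?_ (by omega)
      simp only [rf]
      rwa [if_neg (by omega), if_pos (by omega), show l - 1 - (l - 1 - k) = k by omega]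
  exfalso
  obtain ⟨g₂, e₂, hg₂, j, hj, hw⟩ := hA.ext hg₁ (by omega) s2
  have hp₂ : Pa A g₂ l := fun a ha => by
    rw [e₂ a (by omega), e₂ _ (by omega)]
    exact hp₁ a ha
  rw [← e₂ l (by omega), ← e₂ k (by omega)] at hv
  by_cases e : j < l
  · obtain ⟨k3, k4⟩ := inn hg₂ hp₂ (by omega) (by omega) e hw
    rcases le_or_gt k j with e' | e'
    · exact hA.seg hg₂ hp₂ (by omega) e' e (cap_fork (by omega) (hp₂.pred k1 hk) hv)
        (cap_fork (by omega) (hp₂ j k4).symm hw) (by simp; omega) (by simp; omega)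
    · exact hA.seg hg₂ hp₂ (by omega) e'.le hk (cap_fork (by omega) (hp₂.pred k3 e) hw)
        (cap_fork (by omega) (hp₂ k k2).symm hv) (by simp; omega) (by simp; omega)
  obtain rfl : j = l := by omega
  by_cases k3 : k = 1
  · subst k3
    refine hm _ (hg₂.comp (fun a => if a = 0 then j + 1 else if a = 1 then j else a - 1)
      (fun a ha => by split_ifs <;> omega) fun a ha b hb => by split_ifs <;> omega) fun a ha => ?_
    by_cases e0 : a = 0
    · simpa [e0] using hw
    by_cases e1 : a = 1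
    · simpa [e1] using hv
    · simp only [e0, e1, if_false, Nat.add_one_ne_zero, Nat.add_sub_cancel, Nat.add_eq_right]
      exact hp₂.pred (by omega) (by omega)
  by_cases k4 : k + 2 = j
  · subst k4
    refine hm _ (hg₂.comp (fun a => if a ≤ k then a else a + 1)
      (fun a ha => by split_ifs <;> omega) fun a ha b hb => by split_ifs <;> omega) fun a ha => ?_
    split_ifs with e0 e1 e1
    · exact hp₂ a (by omega)
    · obtain rfl : a = k := by omega
      exact hv.symm
    · omega
    · obtain rfl : a = k + 1 := by omega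
      exact hw.symm
  exact hA.tri hg₂ hp₂ (by omega) (r := 2) (N := 3) (α := 1) (β := 1) (γ := 1) rfl k1 k2 hv
    (fun _ => hw) (by simp) (by omega) (by omega)

end FT

end Vale.Agent.P011UD
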